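import Vale.Agent.P042.Cert

namespace Vale.Agent.Results.P042.SquaresLower

theorem result : ∃ c : ℝ, 0 < c ∧ ∀ N : ℕ, 1 ≤ N → ∃ A : Finset ℕ, A ⊆ Finset.Icc 1 N ∧
      (∀ x ∈ A, ∀ y ∈ A, ∀ n : ℕ, 1 ≤ n → (x : ℤ) - (y : ℤ) ≠ (n : ℤ) ^ 2) ∧
      c * (N : ℝ) ^ (0.757 : ℝ) ≤ (A.card : ℝ) :=
  Vale.Agent.P042.main

end Vale.Agent.Results.P042.SquaresLower
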